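import Vale.Agent.P101.Drop.Bridge
import Vale.Agent.P101.Drop.Data
import Vale.Agent.P101.Colours
import Vale.Agent.P101.Piece
import Vale.Agent.P101.Orth.Pair
import Vale.Agent.P101.Core.Main

/-!
# P101: the Kirchberg–Rørdam character question

For a separable unital C*-algebra `A` and a free ultrafilter `ω`, the central sequence algebra
`F_ω(A)` has no character iff the dimension drop algebra `Z_{2,3}` admits a unital *-homomorphism
into `A_∞ ∩ A'`.
-/

noncomputable section

namespace Vale.Agent.Results.P101.CentralDimensionDropHom

universe u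

open Vale.Agent.P101

theorem result :
    ∀ (A : Type u) [CStarAlgebra A] [Nontrivial A] [TopologicalSpace.SeparableSpace A]
      (ω : Ultrafilter ℕ), (ω : Filter ℕ) ≤ Filter.atTop →
        ((¬ ∃ χ : (ℕ → A) → ℂ, IsCentralCharacter A ω χ) ↔ ∃ φ, IsCentralDropHom A φ) :=
  dropFinal_of_data (fun _ _ _ _ y v h1 h2 h3 => exists_dropData y v h1 h2 h3)
    (final_of_core (core_of (orthN_of_orth orthStatement)
      (piece_of_orthN (orthN_of_orth orthStatement)) colours))

end Vale.Agent.Results.P101.CentralDimensionDropHom
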